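import Mathlib

/-!
P212: metric spaces of bounded geometry and their Rips complexes.
-/

open scoped ZeroAtInfty
open Topology Filter

namespace VP212

variable (X : Type) [MetricSpace X]

/-- Uniform discreteness. -/
def UniformlyDiscrete : Prop := ∃ δ : ℝ, 0 < δ ∧ ∀ x y : X, x ≠ y → δ ≤ dist x y

/-- Bounded geometry: balls of each fixed radius have uniformly bounded cardinality. -/
def BoundedGeometry : Prop :=
  ∀ R : ℝ, ∃ N : ℕ, ∀ x : X, (Metric.closedBall x R).Finite ∧ (Metric.closedBall x R).ncard ≤ N

/-- The Rips complex of scale `R`, as the space of probability functions on `X` whose finite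
support has diameter at most `R` (barycentric coordinates, with the metric of `l1`). -/
def Rips (R : ℝ) : Set (lp (fun _ : X => ℝ) 1) :=
  {c | (∀ x, 0 ≤ c x) ∧ ‖c‖ = 1 ∧ {x | c x ≠ 0}.Finite ∧
    ∀ x y, c x ≠ 0 → c y ≠ 0 → dist x y ≤ R}

variable {X}

/-- The inclusion of a Rips complex into a larger one. -/
def ripsIncl {R R' : ℝ} (h : R ≤ R') (p : Rips X R) : Rips X R' :=
  ⟨p.1, p.2.1, p.2.2.1, p.2.2.2.1, fun x y hx hy => (p.2.2.2.2 x y hx hy).trans h⟩

theorem continuous_coord (x : X) : Continuous fun c : lp (fun _ : X => ℝ) 1 => c x :=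
  ((continuous_apply x).comp (lp.uniformContinuous_coe).continuous)

theorem ripsIncl_closedEmbedding {R R' : ℝ} (h : R ≤ R') :
    IsClosedEmbedding (ripsIncl (X := X) h) := by
  refine ⟨IsEmbedding.of_comp (continuous_subtype_val.subtype_mk _) continuous_subtype_val
    IsEmbedding.subtypeVal, ?_⟩
  have : Set.range (ripsIncl (X := X) h) =
      ⋂ (x : X) (y : X) (_ : R < dist x y),
        {p : Rips X R' | p.1 x = 0} ∪ {p : Rips X R' | p.1 y = 0} := by
    ext p
    simp only [Set.mem_iInter, Set.mem_union, Set.mem_setOf_eq]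
    constructor
    · rintro ⟨q, rfl⟩ x y hxy
      by_contra hne
      push_neg at hne
      exact absurd (q.2.2.2.2 x y hne.1 hne.2) (not_le.2 hxy)
    · intro hp
      refine ⟨⟨p.1, p.2.1, p.2.2.1, p.2.2.2.1, fun x y hx hy => ?_⟩, rfl⟩
      by_contra hne
      exact (hp x y (not_le.1 hne)).elim hx hy
  rw [this]
  exact isClosed_iInter fun x => isClosed_iInter fun y => isClosed_iInter fun _ =>
    (isClosed_eq ((continuous_coord x).comp continuous_subtype_val) continuous_const).union
      (isClosed_eq ((continuous_coord y).comp continuous_subtype_val) continuous_const)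

/-- Restriction of functions from a Rips complex to a smaller one. -/
noncomputable def ripsRestrict {R R' : ℝ} (h : R ≤ R') :
    C₀(Rips X R', ℂ) →⋆ₙₐ[ℂ] C₀(Rips X R, ℂ) where
  toFun f :=
    { toFun := fun p => f (ripsIncl h p)
      continuous_toFun := (map_continuous f).comp (ripsIncl_closedEmbedding h).continuous
      zero_at_infty' := (zero_at_infty f).comp (ripsIncl_closedEmbedding h).tendsto_cocompact }
  map_smul' _ _ := rfl
  map_zero' := rfl
  map_add' _ _ := rfl
  map_mul' _ _ := rfl
  map_star' _ := rfl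

end VP212
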