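import Mathlib

/-!
P212: Kasparov K-homology in degree 0, as in Higson-Roe, Analytic K-homology, Definition 8.2.5:
the abelian group generated by unitary equivalence classes of Fredholm modules, subject to
operator homotopy and direct sum.
-/

open scoped InnerProductSpace

namespace VP212

/-- A separable Hilbert space bundled in `Type`. -/
structure Hilb where
  carrier : Type
  [normed : NormedAddCommGroup carrier]
  [inner : InnerProductSpace ℂ carrier]
  [complete : CompleteSpace carrier]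
  [separable : TopologicalSpace.SeparableSpace carrier]

attribute [instance] Hilb.normed Hilb.inner Hilb.complete Hilb.separable

variable (A : Type) [NonUnitalRing A] [Module ℂ A] [Star A]

/-- An even Fredholm module: the grading is `H0 ⊕ H1` and the odd operator is given by
`W : H0 → H1` and `V : H1 → H0`. The conditions say that `ρ(a)(F^2 - 1)`, `ρ(a)(F - F*)` and
`[F, ρ(a)]` are compact for every `a`. -/
structure FredMod where
  H0 : Hilb
  H1 : Hilb
  ρ0 : A →⋆ₙₐ[ℂ] (H0.carrier →L[ℂ] H0.carrier)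
  ρ1 : A →⋆ₙₐ[ℂ] (H1.carrier →L[ℂ] H1.carrier)
  W : H0.carrier →L[ℂ] H1.carrier
  V : H1.carrier →L[ℂ] H0.carrier
  commW : ∀ a, IsCompactOperator (W.comp (ρ0 a) - (ρ1 a).comp W)
  commV : ∀ a, IsCompactOperator (V.comp (ρ1 a) - (ρ0 a).comp V)
  sq0 : ∀ a, IsCompactOperator ((ρ0 a).comp (V.comp W - 1))
  sq1 : ∀ a, IsCompactOperator ((ρ1 a).comp (W.comp V - 1))
  selfAdj : ∀ a, IsCompactOperator ((ρ0 a).comp (V - ContinuousLinearMap.adjoint W))

variable {A}

/-- Unitary equivalence of Fredholm modules. -/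
def UnitaryEquiv (M N : FredMod A) : Prop :=
  ∃ (U0 : M.H0.carrier ≃ₗᵢ[ℂ] N.H0.carrier) (U1 : M.H1.carrier ≃ₗᵢ[ℂ] N.H1.carrier),
    (∀ a x, U0 (M.ρ0 a x) = N.ρ0 a (U0 x)) ∧ (∀ a x, U1 (M.ρ1 a x) = N.ρ1 a (U1 x)) ∧
    (∀ x, U1 (M.W x) = N.W (U0 x)) ∧ (∀ x, U0 (M.V x) = N.V (U1 x))

/-- Operator homotopy: the representations are fixed and the operators move norm-continuously
through Fredholm modules. -/
def OperatorHomotopic (M N : FredMod A) : Prop :=
  ∃ (H0 H1 : Hilb) (r0 : A →⋆ₙₐ[ℂ] (H0.carrier →L[ℂ] H0.carrier))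
    (r1 : A →⋆ₙₐ[ℂ] (H1.carrier →L[ℂ] H1.carrier))
    (W : ℝ → (H0.carrier →L[ℂ] H1.carrier)) (V : ℝ → (H1.carrier →L[ℂ] H0.carrier))
    (cW : ∀ t a, IsCompactOperator ((W t).comp (r0 a) - (r1 a).comp (W t)))
    (cV : ∀ t a, IsCompactOperator ((V t).comp (r1 a) - (r0 a).comp (V t)))
    (s0 : ∀ t a, IsCompactOperator ((r0 a).comp ((V t).comp (W t) - 1)))
    (s1 : ∀ t a, IsCompactOperator ((r1 a).comp ((W t).comp (V t) - 1)))
    (sa : ∀ t a, IsCompactOperator ((r0 a).comp (V t - ContinuousLinearMap.adjoint (W t)))),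
    Continuous W ∧ Continuous V ∧
      M = ⟨H0, H1, r0, r1, W 0, V 0, cW 0, cV 0, s0 0, s1 0, sa 0⟩ ∧
      N = ⟨H0, H1, r0, r1, W 1, V 1, cW 1, cV 1, s0 1, s1 1, sa 1⟩

/-- `D` is (unitarily equivalent to) the direct sum of `M` and `N`. -/
def IsSum (M N D : FredMod A) : Prop :=
  ∃ (L0 : WithLp 2 (M.H0.carrier × N.H0.carrier) ≃ₗᵢ[ℂ] D.H0.carrier)
    (L1 : WithLp 2 (M.H1.carrier × N.H1.carrier) ≃ₗᵢ[ℂ] D.H1.carrier),
    (∀ a x y, D.ρ0 a (L0 (WithLp.toLp 2 (x, y))) = L0 (WithLp.toLp 2 (M.ρ0 a x, N.ρ0 a y))) ∧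
    (∀ a x y, D.ρ1 a (L1 (WithLp.toLp 2 (x, y))) = L1 (WithLp.toLp 2 (M.ρ1 a x, N.ρ1 a y))) ∧
    (∀ x y, D.W (L0 (WithLp.toLp 2 (x, y))) = L1 (WithLp.toLp 2 (M.W x, N.W y))) ∧
    (∀ x y, D.V (L1 (WithLp.toLp 2 (x, y))) = L0 (WithLp.toLp 2 (M.V x, N.V y)))

variable (A)

/-- The defining relations of K-homology. -/
def kRelations : Set (FreeAbelianGroup (FredMod A)) :=
  {z | ∃ M N, (UnitaryEquiv M N ∨ OperatorHomotopic M N) ∧
      z = FreeAbelianGroup.of M - FreeAbelianGroup.of N} ∪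
  {z | ∃ M N D, IsSum M N D ∧
      z = FreeAbelianGroup.of M + FreeAbelianGroup.of N - FreeAbelianGroup.of D}

/-- The K-homology group `K^0(A) = KK_0(A, ℂ)`. -/
abbrev KHom : Type 1 :=
  FreeAbelianGroup (FredMod A) ⧸ AddSubgroup.closure (kRelations A)

variable {A}

/-- The class of a Fredholm module. -/
noncomputable def kClass (M : FredMod A) : KHom A :=
  QuotientAddGroup.mk (FreeAbelianGroup.of M)

variable {B : Type} [NonUnitalRing B] [Module ℂ B] [Star B]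

/-- A homomorphism `B → A` carries modules over `A` to modules over `B`. -/
noncomputable def FredMod.pull (φ : B →⋆ₙₐ[ℂ] A) (M : FredMod A) : FredMod B where
  H0 := M.H0
  H1 := M.H1
  ρ0 := M.ρ0.comp φ
  ρ1 := M.ρ1.comp φ
  W := M.W
  V := M.V
  commW b := M.commW (φ b)
  commV b := M.commV (φ b)
  sq0 b := M.sq0 (φ b)
  sq1 b := M.sq1 (φ b)
  selfAdj b := M.selfAdj (φ b)

end VP212
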