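import Vale.Agent.P212.Spec.Roe
import Vale.Agent.P212.Spec.KHom

/-!
P212: the maximal assembly map on a geometric Fredholm module, and the statement.
-/

open scoped InnerProductSpace ZeroAtInfty

namespace VP212

variable {X : Type} [MetricSpace X] {r : ℝ}

/-- `f` vanishes at every point of the Rips complex having a support vertex within `S` of `x`. -/
def VanishesNear (f : C₀(Rips X r, ℂ)) (x : X) (S : ℝ) : Prop :=
  ∀ p : Rips X r, (∃ y, p.1 y ≠ 0 ∧ dist x y ≤ S) → f p = 0

/-- `f` and `g` are supported at distance more than `S`, measured on support vertices. -/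
def FarApart (f g : C₀(Rips X r, ℂ)) (S : ℝ) : Prop :=
  ∀ p q : Rips X r, f p ≠ 0 → g q ≠ 0 → ∀ y z, p.1 y ≠ 0 → q.1 z ≠ 0 → S < dist y z

/-- The essential image of a representation is everything. -/
def Nondegenerate {A H : Type} [NonUnitalRing A] [Module ℂ A] [Star A] [NormedAddCommGroup H]
    [InnerProductSpace ℂ H] [CompleteSpace H] (ρ : A →⋆ₙₐ[ℂ] (H →L[ℂ] H)) : Prop :=
  Dense (Submodule.span ℂ {v | ∃ a w, ρ a w = v} : Set H)

/-- An isometry into `l2(X) ⊗ l2(N)` covering the coarse equivalence between the Rips complex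
and `X`. -/
def IsCovering {H : Type} [NormedAddCommGroup H] [InnerProductSpace ℂ H] [CompleteSpace H]
    (ρ : C₀(Rips X r, ℂ) →⋆ₙₐ[ℂ] (H →L[ℂ] H)) (J : H →L[ℂ] RoeSpace X) : Prop :=
  (∀ v, ‖J v‖ = ‖v‖) ∧
    ∃ S : ℝ, ∀ f x, VanishesNear f x S → ∀ v k, J (ρ f v) (x, k) = 0

/-- A geometric module: nondegenerate representations and operators of finite propagation. -/
def IsGeometric (M : FredMod (C₀(Rips X r, ℂ))) : Prop :=
  Nondegenerate M.ρ0 ∧ Nondegenerate M.ρ1 ∧
    ∃ S : ℝ, ∀ f g, FarApart f g S →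
      (M.ρ1 g).comp (M.W.comp (M.ρ0 f)) = 0 ∧ (M.ρ0 g).comp (M.V.comp (M.ρ1 f)) = 0

/-- The four entries of the difference between the index idempotent
`[[S0^2, S0(1+S0)V], [S1 W, 1-S1^2]]` (with `S0 = 1-VW`, `S1 = 1-WV`) and `[[0,0],[0,1]]`,
transported to `l2(X) ⊗ l2(N)` by covering isometries. -/
noncomputable def indexEntry (M : FredMod (C₀(Rips X r, ℂ)))
    (J0 : M.H0.carrier →L[ℂ] RoeSpace X) (J1 : M.H1.carrier →L[ℂ] RoeSpace X) :
    Fin 2 → Fin 2 → (RoeSpace X →L[ℂ] RoeSpace X) :=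
  let s0 := 1 - M.V.comp M.W
  let s1 := 1 - M.W.comp M.V
  ![![J0.comp ((s0 * s0).comp (ContinuousLinearMap.adjoint J0)),
      J0.comp (((s0 * (1 + s0)).comp M.V).comp (ContinuousLinearMap.adjoint J1))],
    ![J1.comp ((s1.comp M.W).comp (ContinuousLinearMap.adjoint J0)),
      -(J1.comp ((s1 * s1).comp (ContinuousLinearMap.adjoint J1)))]]

/-- The maximal assembly map sends the class of the geometric module `M` to zero: for covering
isometries the index class `[e] - [diag(0,1)]` vanishes in K0 of the maximal Roe algebra. -/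
def AssemblyVanishes (M : FredMod (C₀(Rips X r, ℂ))) : Prop :=
  IsGeometric M ∧ ∃ J0 J1, IsCovering M.ρ0 J0 ∧ IsCovering M.ρ1 J1 ∧
    (∀ i j, IsRoe (indexEntry M J0 J1 i j)) ∧
    ∃ A : Fin 2 → Fin 2 → (UnivSpace X →L[ℂ] UnivSpace X),
      (∀ i j, IsUnivImage (indexEntry M J0 J1 i j) (A i j)) ∧
      SameK0 (maxRoeUnit X) (Matrix.diagonal ![0, 1] + Matrix.of A) (Matrix.diagonal ![0, 1])

/-- The class of `M` is not torsion in the coarse K-homology `colim K^0(C0(P_R X))`. -/
def CoarselyNonTorsion (M : FredMod (C₀(Rips X r, ℂ))) : Prop :=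
  ∀ R (h : r ≤ R) (k : ℕ), 0 < k → k • kClass (M.pull (ripsRestrict h)) ≠ 0

/-- The negative answer to P212: a space of bounded geometry with a non-torsion class of coarse
K-homology which the maximal assembly map kills. -/
def Disproof : Prop :=
  ∃ (X : Type) (_ : MetricSpace X), UniformlyDiscrete X ∧ BoundedGeometry X ∧ MaxNormFinite X ∧
    ∃ (r : ℝ) (M : FredMod (C₀(Rips X r, ℂ))), AssemblyVanishes M ∧ CoarselyNonTorsion M

end VP212
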