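import Vale.Agent.P212.Spec.Space

/-!
P212: the algebraic Roe algebra, the maximal Roe algebra, and equality of K0 classes.
-/

open scoped InnerProductSpace

namespace VP212

variable (X : Type)

/-- `l2(X) ⊗ l2(N)`. -/
abbrev RoeSpace : Type := lp (fun _ : X × ℕ => ℂ) 2

variable {X}

/-- The isometric inclusion of the fibre over a point, on basis vectors. -/
noncomputable def delta (x : X) (k : ℕ) : RoeSpace X := by
  classical exact lp.single 2 (x, k) (1 : ℂ)

/-- The projection of `l2(X) ⊗ l2(N)` onto the fibre over `x`, as a predicate. -/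
def IsFibreProj (x : X) (e : RoeSpace X →L[ℂ] RoeSpace X) : Prop :=
  ∀ (v : RoeSpace X) (y : X) (k : ℕ), (y = x → e v (y, k) = v (y, k)) ∧ (y ≠ x → e v (y, k) = 0)

variable [MetricSpace X]

/-- Membership of the algebraic Roe algebra `C[X]`: finite propagation and compact entries. -/
def IsRoe (T : RoeSpace X →L[ℂ] RoeSpace X) : Prop :=
  (∃ R : ℝ, ∀ x y k l, R < dist x y → ⟪delta x k, T (delta y l)⟫_ℂ = 0) ∧
  ∀ x y e e', IsFibreProj x e → IsFibreProj y e' → IsCompactOperator (e.comp (T.comp e'))

variable (X)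

/-- A star representation of `C[X]` on a Hilbert space. -/
structure RoeRep where
  carrier : Type
  [normed : NormedAddCommGroup carrier]
  [inner : InnerProductSpace ℂ carrier]
  [complete : CompleteSpace carrier]
  π : (RoeSpace X →L[ℂ] RoeSpace X) → (carrier →L[ℂ] carrier)
  map_add : ∀ S T, IsRoe S → IsRoe T → π (S + T) = π S + π T
  map_smul : ∀ (c : ℂ) S, IsRoe S → π (c • S) = c • π S
  map_mul : ∀ S T, IsRoe S → IsRoe T → π (S * T) = π S * π T
  map_star : ∀ S, IsRoe S → π (star S) = star (π S)

attribute [instance] RoeRep.normed RoeRep.inner RoeRep.complete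

/-- The sum of all representations of `C[X]`. -/
abbrev UnivSpace : Type 1 := lp (fun π : RoeRep X => π.carrier) 2

variable {X}

/-- `A` is the image of `T` under the universal representation. -/
def IsUnivImage (T : RoeSpace X →L[ℂ] RoeSpace X) (A : UnivSpace X →L[ℂ] UnivSpace X) : Prop :=
  ∀ v π, A v π = π.π T (v π)

variable (X)

/-- The universal norm is finite, so that every element has its image. -/
def MaxNormFinite : Prop :=
  ∀ T : RoeSpace X →L[ℂ] RoeSpace X, IsRoe T → ∃ A, IsUnivImage T A

/-- The maximal Roe algebra. -/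
def maxRoe : Set (UnivSpace X →L[ℂ] UnivSpace X) :=
  closure {A | ∃ T, IsRoe T ∧ IsUnivImage T A}

/-- Its unitisation. -/
def maxRoeUnit : Set (UnivSpace X →L[ℂ] UnivSpace X) :=
  {A | ∃ (z : ℂ) (B : UnivSpace X →L[ℂ] UnivSpace X), B ∈ maxRoe X ∧ A = z • 1 + B}

/-- Two idempotent matrices over a set of ring elements have the same class in K0: after adding
a common identity block and a zero block they are algebraically equivalent within that set. -/
def SameK0 {R : Type*} [Ring R] (S : Set R) {ι : Type} [Fintype ι] [DecidableEq ι]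
    (e f : Matrix ι ι R) : Prop :=
  ∃ (m n : ℕ) (a b : Matrix (ι ⊕ Fin m ⊕ Fin n) (ι ⊕ Fin m ⊕ Fin n) R),
    (∀ i j, a i j ∈ S) ∧ (∀ i j, b i j ∈ S) ∧
    a * b = Matrix.fromBlocks e 0 0
      (Matrix.fromBlocks (1 : Matrix (Fin m) (Fin m) R) 0 0 0) ∧
    b * a = Matrix.fromBlocks f 0 0
      (Matrix.fromBlocks (1 : Matrix (Fin m) (Fin m) R) 0 0 0)

end VP212
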